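import Vale.Agent.P038.H214.Key

/-!
# Seymour's second neighbourhood conjecture, in terms of closed out-neighbourhoods
-/

set_option autoImplicit false

namespace Vale.Agent.P038.H98

open Finset Vale.Agent.P038.H214

variable {V : Type*} [Fintype V] [DecidableEq V]

/-- closed out-neighbourhoods of an oriented graph -/
def Ori (N : V → Finset V) : Prop := (∀ v, v ∈ N v) ∧ ∀ u v, u ∈ N v → v ∈ N u → u = v

/-- counterexamples -/
def CE (N : V → Finset V) : Prop := ∀ v, (cl N (N v)).card + 1 < 2 * (N v).card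

theorem subset_cl {N : V → Finset V} (hN : ∀ v, v ∈ N v) (S : Finset V) : S ⊆ cl N S :=
  fun x hx => mem_cl.2 ⟨x, hx, hN x⟩

theorem h_nonneg {N : V → Finset V} (hN : ∀ v, v ∈ N v) (S : Finset V) : 0 ≤ h N S := by
  have := card_le_card (subset_cl hN S)
  unfold h
  omega

/-- the inequality (G) for sets in a minimal counterexample -/
theorem G_lemma {N : V → Finset V} (hO : Ori N) (hCE : CE N)
    (hmin : ∀ N' : V → Finset V, Ori N' → ∑ v, (N' v).card < ∑ v, (N v).card → ¬ CE N')
    (X : Finset V) (hX : cl N X ≠ X) : h N (cl N X) < h N X := by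
  by_contra hcon
  push Not at hcon
  have hN := hO.1
  have hXc := subset_cl hN X
  set L := cl N X \ X with hL
  have hLne : L.Nonempty := by
    rw [Finset.nonempty_iff_ne_empty]
    intro h0
    apply hX
    exact Subset.antisymm (sdiff_eq_empty_iff_subset.1 h0) hXc
  let d : Finset V → ℤ := fun T => ((cl N T \ X).card : ℤ) - 2 * T.card
  have hPne : L.ssubsets.Nonempty := ⟨∅, mem_ssubsets.2 (Finset.empty_ssubset.2 hLne)⟩
  obtain ⟨T, hT, hTmin⟩ := Finset.exists_min_image L.ssubsets d hPne
  have hTL : T ⊂ L := mem_ssubsets.1 hT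
  have hd0 : d ∅ = 0 := by simp [d, cl]
  have hdT : d T ≤ 0 := by
    rw [← hd0]
    exact hTmin ∅ (mem_ssubsets.2 (Finset.empty_ssubset.2 hLne))
  have hcl2 : cl N (cl N X) = X ∪ cl N L := by
    ext x
    simp only [mem_cl, mem_union, hL, mem_sdiff]
    constructor
    · rintro ⟨a, ⟨b, hb, hab⟩, hxa⟩
      by_cases haX : a ∈ X
      · by_cases hxX : x ∈ X
        · exact Or.inl hxX
        · exact Or.inr ⟨x, ⟨⟨a, haX, hxa⟩, hxX⟩, hN x⟩
      · exact Or.inr ⟨a, ⟨⟨b, hb, hab⟩, haX⟩, hxa⟩
    · rintro (hx | ⟨a, ⟨⟨b, hb, hab⟩, -⟩, hxa⟩)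
      · exact ⟨x, ⟨x, hx, hN x⟩, hN x⟩
      · exact ⟨a, ⟨b, hb, hab⟩, hxa⟩
  have hdL : 0 ≤ d L := by
    have e1 : (cl N (cl N X)).card = X.card + (cl N L \ X).card := by
      rw [hcl2, ← card_union_of_disjoint disjoint_sdiff, union_sdiff_self_eq_union]
    have e2 : (cl N X).card = X.card + L.card := by
      rw [hL, ← card_union_of_disjoint disjoint_sdiff, union_sdiff_of_subset hXc]
    unfold h at hcon
    change (0 : ℤ) ≤ ((cl N L \ X).card : ℤ) - 2 * L.card
    rw [e1, e2] at hcon
    push_cast at hcon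
    linarith
  have hopt : ∀ O' : Finset V, O' ⊆ L → d T ≤ d (T ∪ O') := by
    intro O' hO'
    by_cases he : T ∪ O' = L
    · rw [he]; exact hdT.trans hdL
    · refine hTmin _ (mem_ssubsets.2 ?_)
      exact (union_subset hTL.1 hO').ssubset_of_ne he
  set O := L \ T with hOdef
  have hOne : O.Nonempty := by
    obtain ⟨x, hx, hx'⟩ := Finset.exists_of_ssubset hTL
    exact ⟨x, mem_sdiff.2 ⟨hx, hx'⟩⟩
  have hOX : ∀ x ∈ O, x ∉ X := fun x hx => (mem_sdiff.1 (mem_sdiff.1 hx).1).2
  have hOcl : ∀ x ∈ O, x ∈ cl N X := fun x hx => (mem_sdiff.1 (mem_sdiff.1 hx).1).1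
  set N' : V → Finset V := fun v => if v ∈ X then N v \ O else N v with hN'
  have hsub : ∀ v, N' v ⊆ N v := by
    intro v
    by_cases hv : v ∈ X
    · simp only [hN', if_pos hv]; exact sdiff_subset
    · simp only [hN', if_neg hv]; exact Subset.refl _
  have hO' : Ori N' := by
    refine ⟨fun v => ?_, fun u v hu hv => hO.2 u v (hsub v hu) (hsub u hv)⟩
    by_cases hv : v ∈ X
    · simp only [hN', if_pos hv, mem_sdiff]
      exact ⟨hN v, fun h => hOX v h hv⟩
    · simp only [hN', if_neg hv]; exact hN v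
  have hlt : ∑ v, (N' v).card < ∑ v, (N v).card := by
    obtain ⟨x, hx⟩ := hOne
    obtain ⟨y, hy, hxy⟩ := mem_cl.1 (hOcl x hx)
    refine Finset.sum_lt_sum (fun v _ => card_le_card (hsub v)) ⟨y, mem_univ y, ?_⟩
    refine card_lt_card ((hsub y).ssubset_of_ne ?_)
    intro he
    have : x ∈ N' y := by rw [he]; exact hxy
    simp only [hN', if_pos hy, mem_sdiff] at this
    exact this.2 hx
  have hno := hmin N' hO' hlt
  unfold CE at hno
  push Not at hno
  obtain ⟨v, hv⟩ := hno
  have hce := hCE v
  by_cases hvX : v ∈ X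
  · have hNv : N' v = N v \ O := by simp only [hN', if_pos hvX]
    set Dv := N v ∩ O with hDv
    have hDO : Dv ⊆ O := inter_subset_right
    have hDL : Dv ⊆ L := hDO.trans sdiff_subset
    have hTD : Disjoint T Dv := by
      rw [Finset.disjoint_left]
      intro x hx hx'
      exact (mem_sdiff.1 (hDO hx')).2 hx
    set E := cl N Dv \ (X ∪ cl N T) with hE
    have hEc : 2 * Dv.card ≤ E.card := by
      have h1 := hopt Dv hDL
      have h2 : cl N (T ∪ Dv) \ X = (cl N T \ X) ∪ E := by
        ext x
        simp only [hE, mem_cl, mem_union, mem_sdiff]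
        constructor
        · rintro ⟨⟨a, ha | ha, hxa⟩, hxX⟩
          · exact Or.inl ⟨⟨a, ha, hxa⟩, hxX⟩
          · by_cases hxT : ∃ b ∈ T, x ∈ N b
            · exact Or.inl ⟨hxT, hxX⟩
            · exact Or.inr ⟨⟨a, ha, hxa⟩, fun h => h.elim hxX hxT⟩
        · rintro (⟨⟨a, ha, hxa⟩, hxX⟩ | ⟨⟨a, ha, hxa⟩, hx⟩)
          · exact ⟨⟨a, Or.inl ha, hxa⟩, hxX⟩
          · exact ⟨⟨a, Or.inr ha, hxa⟩, fun h => hx (Or.inl h)⟩
      have h3 : Disjoint (cl N T \ X) E := by
        rw [Finset.disjoint_left]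
        intro x hx hx'
        exact (mem_sdiff.1 hx').2 (mem_union_right _ (mem_sdiff.1 hx).1)
      change ((cl N T \ X).card : ℤ) - 2 * T.card ≤
        ((cl N (T ∪ Dv) \ X).card : ℤ) - 2 * (T ∪ Dv).card at h1
      rw [h2, card_union_of_disjoint h3, card_union_of_disjoint hTD] at h1
      push_cast at h1
      omega
    have hEsub : E ⊆ cl N (N v) := by
      intro x hx
      obtain ⟨a, ha, hxa⟩ := mem_cl.1 (mem_sdiff.1 hx).1
      exact mem_cl.2 ⟨a, (mem_inter.1 ha).1, hxa⟩
    have hclsub : cl N' (N' v) ⊆ cl N (N v) \ E := by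
      intro z hz
      obtain ⟨u, hu, hzu⟩ := mem_cl.1 hz
      rw [mem_sdiff]
      refine ⟨mem_cl.2 ⟨u, hsub v hu, hsub u hzu⟩, ?_⟩
      intro hzE
      have hz1 : z ∉ X := fun h => (mem_sdiff.1 hzE).2 (mem_union_left _ h)
      have hz2 : z ∉ cl N T := fun h => (mem_sdiff.1 hzE).2 (mem_union_right _ h)
      rw [hNv, mem_sdiff] at hu
      have hucl : u ∈ cl N X := mem_cl.2 ⟨v, hvX, hu.1⟩
      by_cases huX : u ∈ X
      · have hzu' : z ∈ N u \ O := by
          have := hzu
          simp only [hN', if_pos huX] at this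
          exact this
        rw [mem_sdiff] at hzu'
        have hzL : z ∈ L := mem_sdiff.2 ⟨mem_cl.2 ⟨u, huX, hzu'.1⟩, hz1⟩
        have hzT : z ∈ T := by
          by_contra hzT
          exact hzu'.2 (mem_sdiff.2 ⟨hzL, hzT⟩)
        exact hz2 (subset_cl hN T hzT)
      · have huL : u ∈ L := mem_sdiff.2 ⟨hucl, huX⟩
        have huT : u ∈ T := by
          by_contra huT
          exact hu.2 (mem_sdiff.2 ⟨huL, huT⟩)
        exact hz2 (mem_cl.2 ⟨u, huT, hsub u hzu⟩)
    have hc1 := card_le_card hclsub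
    rw [card_sdiff_of_subset hEsub] at hc1
    have hc2 : (N' v).card + Dv.card = (N v).card := by
      rw [hNv, hDv]
      have := card_sdiff_add_card_inter (N v) O
      exact this
    have hc3 := card_le_card hEsub
    omega
  · have hNv : N' v = N v := by simp only [hN', if_neg hvX]
    rw [hNv] at hv
    have h1 : cl N' (N v) ⊆ cl N (N v) := by
      intro z hz
      obtain ⟨u, hu, hzu⟩ := mem_cl.1 hz
      exact mem_cl.2 ⟨u, hu, hsub u hzu⟩
    have h2 := card_le_card h1
    omega

theorem sum_card_add (f g : V → Finset V) : ∑ z, (f z).card + ∑ x, (g x).card =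
    ∑ z, ∑ x, ((if x ∈ f z then 1 else 0) + (if z ∈ g x then 1 else 0)) := by
  have h1 : ∀ z, (f z).card = ∑ x, if x ∈ f z then 1 else 0 := by
    intro z
    rw [← Finset.sum_filter, Finset.sum_const, smul_eq_mul, mul_one]
    congr 1
    ext x; simp
  have h2 : ∀ x, (g x).card = ∑ z, if z ∈ g x then 1 else 0 := by
    intro z
    rw [← Finset.sum_filter, Finset.sum_const, smul_eq_mul, mul_one]
    congr 1
    ext x; simp
  simp only [Finset.sum_add_distrib]
  congr 1
  · exact Finset.sum_congr rfl fun z _ => h1 z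
  · rw [Finset.sum_comm]
    exact Finset.sum_congr rfl fun z _ => h2 z

theorem sum_const_diag : ∑ z : V, ∑ x : V, (1 + if z = x then 1 else 0) =
    Fintype.card V * Fintype.card V + Fintype.card V := by
  simp only [Finset.sum_add_distrib, Finset.sum_const, Finset.card_univ, smul_eq_mul, mul_one,
    Finset.sum_ite_eq, Finset.mem_univ, if_true]

theorem count_ge (f g : V → Finset V) (h : ∀ z x, x ∈ f z ∨ z ∈ g x)
    (h' : ∀ x, x ∈ f x ∧ x ∈ g x) :
    Fintype.card V * Fintype.card V + Fintype.card V ≤ ∑ z, (f z).card + ∑ x, (g x).card := by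
  rw [sum_card_add, ← sum_const_diag]
  refine Finset.sum_le_sum fun z _ => Finset.sum_le_sum fun x _ => ?_
  by_cases hzx : z = x
  · subst hzx
    rw [if_pos rfl, if_pos (h' z).1, if_pos (h' z).2]
  · rw [if_neg hzx]
    rcases h z x with h1 | h1
    · rw [if_pos h1]; omega
    · rw [if_pos h1]; omega

theorem count_le (f g : V → Finset V) (h : ∀ z x, x ∈ f z → z ∈ g x → z = x) :
    ∑ z, (f z).card + ∑ x, (g x).card ≤ Fintype.card V * Fintype.card V + Fintype.card V := by
  rw [sum_card_add, ← sum_const_diag]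
  refine Finset.sum_le_sum fun z _ => Finset.sum_le_sum fun x _ => ?_
  by_cases hzx : z = x
  · rw [if_pos hzx]
    split_ifs <;> omega
  · rw [if_neg hzx]
    by_cases h1 : x ∈ f z
    · rw [if_pos h1, if_neg fun h2 => hzx (h z x h1 h2)]
    · rw [if_neg h1]
      split_ifs <;> omega

/-- feasible pairs -/
def Feas (N B C : V → Finset V) : Prop :=
  (∀ a, N a ⊆ B a) ∧ (∀ a, N a ⊆ C a) ∧ ∀ a b, b ∈ B a → a ∈ C b → a = b

/-- the energy -/
def En (N B C : V → Finset V) : ℤ := ∑ a, h N (B a) + ∑ a, h N (C a)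

/-- the sets `U a` -/
def UU (C : V → Finset V) (a : V) : Finset V := univ.filter fun b => b = a ∨ a ∉ C b

theorem mem_UU {C : V → Finset V} {a b : V} : b ∈ UU C a ↔ b = a ∨ a ∉ C b := by
  simp [UU]

theorem sum_update (N B : V → Finset V) (a : V) (Y : Finset V) :
    ∑ x, h N (Function.update B a Y x) = ∑ x, h N (B x) - h N (B a) + h N Y := by
  rw [← Finset.add_sum_erase _ _ (mem_univ a), ← Finset.add_sum_erase univ _ (mem_univ a),
    Function.update_self]
  have : ∑ x ∈ univ.erase a, h N (Function.update B a Y x) = ∑ x ∈ univ.erase a, h N (B x) := by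
    refine Finset.sum_congr rfl fun x hx => ?_
    rw [Function.update_of_ne (Finset.ne_of_mem_erase hx)]
  rw [this]
  ring

/-- the shifted pair is not more expensive -/
theorem shift_le {N B C : V → Finset V} (hO : Ori N) (hF : Feas N B C)
    (hopt : ∀ B' C', Feas N B' C' → En N B C ≤ En N B' C') :
    En N (meet N B) (meet N C) ≤ En N B C := by
  obtain ⟨hN, hanti⟩ := hO
  obtain ⟨hB, hC, hBC⟩ := hF
  have hUB : ∀ a, B a ⊆ UU C a := by
    intro a b hb
    rw [mem_UU]
    by_cases hab : a ∈ C b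
    · exact Or.inl (hBC a b hb hab).symm
    · exact Or.inr hab
  have hclU : ∀ z x, z ∉ cl N (C x) → x ∈ meet N (UU C) z := by
    intro z x hz
    rw [mem_meet]
    intro s hs
    rw [mem_UU]
    exact Or.inr fun h => hz (mem_cl.2 ⟨s, h, hs⟩)
  have hkey := key N hN B (UU C) hUB (by
    intro a Y hBY hYU
    have hfeas : Feas N (Function.update B a Y) C := by
      refine ⟨fun x => ?_, hC, fun x b hb hx => ?_⟩
      · by_cases hxa : x = a
        · subst hxa; rw [Function.update_self]; exact (hB x).trans hBY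
        · rw [Function.update_of_ne hxa]; exact hB x
      · by_cases hxa : x = a
        · subst hxa
          rw [Function.update_self] at hb
          rcases mem_UU.1 (hYU hb) with h1 | h1
          · exact h1.symm
          · exact absurd hx h1
        · rw [Function.update_of_ne hxa] at hb
          exact hBC x b hb hx
    have h1 := hopt _ _ hfeas
    unfold En at h1
    rw [sum_update] at h1
    linarith) (by
    intro b S hS
    have hSC : Disjoint (C b) S := by
      rw [Finset.disjoint_left]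
      intro a ha haS
      obtain ⟨h1, h2⟩ := hS a haS
      rcases mem_UU.1 h1 with h3 | h3
      · subst h3
        exact h2 (hB b (hN b))
      · exact h3 ha
    have hfeas : Feas N B (Function.update C b (C b ∪ S)) := by
      refine ⟨hB, fun x => ?_, fun x y hy hx => ?_⟩
      · by_cases hxb : x = b
        · subst hxb; rw [Function.update_self]; exact (hC x).trans subset_union_left
        · rw [Function.update_of_ne hxb]; exact hC x
      · by_cases hyb : y = b
        · subst hyb
          rw [Function.update_self, mem_union] at hx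
          rcases hx with hx | hx
          · exact hBC x y hy hx
          · exact absurd hy (hS x hx).2
        · rw [Function.update_of_ne hyb] at hx
          exact hBC x y hy hx
    have h1 := hopt _ _ hfeas
    unfold En at h1
    rw [sum_update] at h1
    have h2 : h N (C b) ≤ h N (C b ∪ S) := by linarith
    have h3 : cl N (C b ∪ S) ⊆ cl N (C b) ∪
        (univ.filter fun z => b ∈ meet N (UU C) z ∧ ∃ a ∈ S, z ∈ N a) := by
      intro z hz
      obtain ⟨a, ha, hza⟩ := mem_cl.1 hz
      by_cases hzC : z ∈ cl N (C b)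
      · exact mem_union_left _ hzC
      · refine mem_union_right _ ?_
        rw [mem_filter]
        refine ⟨mem_univ z, hclU z b hzC, a, ?_, hza⟩
        rcases mem_union.1 ha with h | h
        · exact absurd (mem_cl.2 ⟨a, h, hza⟩) hzC
        · exact h
    have h4 := (card_le_card h3).trans (card_union_le _ _)
    unfold h at h2
    rw [card_union_of_disjoint hSC] at h2
    push_cast at h2
    omega)
  -- counting
  have c1 : Fintype.card V * Fintype.card V + Fintype.card V ≤
      ∑ z, (meet N (UU C) z).card + ∑ x, (cl N (C x)).card := by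
    refine count_ge _ _ (fun z x => ?_) fun x => ⟨?_, ?_⟩
    · by_cases hz : z ∈ cl N (C x)
      · exact Or.inr hz
      · exact Or.inl (hclU z x hz)
    · rw [mem_meet]
      intro a ha
      rw [mem_UU]
      by_cases hax : a ∈ C x
      · exact Or.inl (hBC a x (hB a ha) hax).symm
      · exact Or.inr hax
    · exact subset_cl hN _ (hC x (hN x))
  have c2 : ∑ z, (UU C z).card + ∑ x, (C x).card ≤
      Fintype.card V * Fintype.card V + Fintype.card V := by
    refine count_le _ _ fun z x hx hz => ?_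
    rcases mem_UU.1 hx with h | h
    · exact h.symm
    · exact absurd hz h
  have c3 : Fintype.card V * Fintype.card V + Fintype.card V ≤
      ∑ z, (meet N C z).card + ∑ x, (cl N (UU C x)).card := by
    refine count_ge _ _ (fun z x => ?_) fun x => ⟨?_, ?_⟩
    · by_cases hx : x ∈ meet N C z
      · exact Or.inl hx
      · rw [mem_meet] at hx
        push Not at hx
        obtain ⟨a, ha, hxa⟩ := hx
        exact Or.inr (mem_cl.2 ⟨a, mem_UU.2 (Or.inr hxa), ha⟩)
    · rw [mem_meet]
      intro a ha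
      exact hC a ha
    · exact subset_cl hN _ (mem_UU.2 (Or.inl rfl))
  have c4 : ∑ z, (cl N (meet N C z)).card + ∑ x, (cl N (meet N (UU C) x)).card ≤
      Fintype.card V * Fintype.card V + Fintype.card V := by
    refine count_le _ _ fun z b hb hz => ?_
    obtain ⟨y, hy, hby⟩ := mem_cl.1 hb
    obtain ⟨x, hx, hzx⟩ := mem_cl.1 hz
    rw [mem_meet] at hx hy
    have hyx : y ∈ C x := hy x hzx
    have hxy : x = y := by
      rcases mem_UU.1 (hx y hby) with h | h
      · exact h
      · exact absurd hyx h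
    subst hxy
    have hxb : x = b := by
      rcases mem_UU.1 (hx b (hN b)) with h | h
      · exact h
      · exact absurd (hC x hby) h
    have hxz : x = z := hBC x z (hB x hzx) (hy z (hN z))
    rw [← hxz, hxb]
  unfold En
  unfold h at hkey ⊢
  simp only [Finset.sum_sub_distrib] at hkey ⊢
  zify at c1 c2 c3 c4
  linarith

/-- closed sets -/
theorem no_CE [Nonempty V] {N : V → Finset V} (hO : Ori N) (hCE : CE N)
    (hmin : ∀ N' : V → Finset V, Ori N' → ∑ v, (N' v).card < ∑ v, (N v).card → ¬ CE N') :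
    False := by
  classical
  have hN := hO.1
  have hG := G_lemma hO hCE hmin
  have hG' : ∀ S, h N (cl N S) ≤ h N S := by
    intro S
    by_cases hS : cl N S = S
    · rw [hS]
    · exact (hG S hS).le
  -- the minimiser
  have hne : {p : (V → Finset V) × (V → Finset V) | Feas N p.1 p.2}.Nonempty :=
    ⟨(N, N), fun a => Subset.refl _, fun a => Subset.refl _, fun a b hb ha => hO.2 a b ha hb⟩
  obtain ⟨⟨B, C⟩, hF, hopt⟩ := Set.exists_min_image
    {p : (V → Finset V) × (V → Finset V) | Feas N p.1 p.2} (fun p => En N p.1 p.2)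
    (Set.toFinite _) hne
  have hF' : Feas N B C := hF
  have hopt' : ∀ B' C', Feas N B' C' → En N B C ≤ En N B' C' := fun B' C' h => hopt (B', C') h
  have hshift := shift_le hO hF' hopt'
  obtain ⟨hB, hC, hBC⟩ := hF'
  have hfe : Feas N (fun a => cl N (meet N B a)) (fun a => cl N (meet N C a)) := by
    refine ⟨fun a x hx => ?_, fun a x hx => ?_, fun a b hb ha => ?_⟩
    · refine mem_cl.2 ⟨a, ?_, hx⟩
      rw [mem_meet]
      exact fun s hs => hB s hs
    · refine mem_cl.2 ⟨a, ?_, hx⟩
      rw [mem_meet]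
      exact fun s hs => hC s hs
    · obtain ⟨x, hx, hbx⟩ := mem_cl.1 hb
      obtain ⟨y, hy, hay⟩ := mem_cl.1 ha
      rw [mem_meet] at hx hy
      have h1 : x ∈ B y := hx y hay
      have h2 : y ∈ C x := hy x hbx
      have h3 := hBC y x h1 h2
      subst h3
      have h4 : y = a := (hBC a y (hx a (hN a)) (hC y hay)).symm
      have h5 : y = b := hBC y b (hB y hbx) (hy b (hN b))
      rw [← h4, h5]
  have h1 := hopt' _ _ hfe
  have h2 : En N (fun a => cl N (meet N B a)) (fun a => cl N (meet N C a)) ≤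
      En N (meet N B) (meet N C) :=
    add_le_add (Finset.sum_le_sum fun a _ => hG' _) (Finset.sum_le_sum fun a _ => hG' _)
  -- all sets are closed
  have hle1 : ∑ a, h N (cl N (meet N B a)) ≤ ∑ a, h N (meet N B a) :=
    Finset.sum_le_sum fun a _ => hG' _
  have hle2 : ∑ a, h N (cl N (meet N C a)) ≤ ∑ a, h N (meet N C a) :=
    Finset.sum_le_sum fun a _ => hG' _
  have heq1 : ∑ a, h N (cl N (meet N B a)) = ∑ a, h N (meet N B a) := by
    unfold En at h1 hshift
    linarith
  have heq2 : ∑ a, h N (cl N (meet N C a)) = ∑ a, h N (meet N C a) := by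
    unfold En at h1 hshift
    linarith
  have hcl0 : ∀ S, cl N S = S → h N S = 0 := by
    intro S hS
    unfold h
    rw [hS, sub_self]
  have hX0 : ∀ a, h N (meet N B a) = 0 := by
    intro a
    have h3 := (Finset.sum_eq_sum_iff_of_le fun a _ => hG' (meet N B a)).1 heq1 a (mem_univ a)
    by_contra hne
    exact absurd h3 (hG _ fun hc => hne (hcl0 _ hc)).ne
  have hY0 : ∀ a, h N (meet N C a) = 0 := by
    intro a
    have h3 := (Finset.sum_eq_sum_iff_of_le fun a _ => hG' (meet N C a)).1 heq2 a (mem_univ a)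
    by_contra hne
    exact absurd h3 (hG _ fun hc => hne (hcl0 _ hc)).ne
  have hE0 : En N B C ≤ 0 := by
    refine (h1.trans h2).trans ?_
    unfold En
    rw [Finset.sum_eq_zero fun a _ => hX0 a, Finset.sum_eq_zero fun a _ => hY0 a, add_zero]
  have hBn : 0 ≤ ∑ a, h N (B a) := Finset.sum_nonneg fun a _ => h_nonneg hN _
  have hCn : 0 ≤ ∑ a, h N (C a) := Finset.sum_nonneg fun a _ => h_nonneg hN _
  have hB0 : ∑ a, h N (B a) = 0 := by unfold En at hE0; linarith
  have hC0 : ∑ a, h N (C a) = 0 := by unfold En at hE0; linarith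
  have hclosed : ∀ S, h N S = 0 → cl N S = S := by
    intro S hS
    unfold h at hS
    exact (Finset.eq_of_subset_of_card_le (subset_cl hN S) (by omega)).symm
  have hBc : ∀ a, cl N (B a) = B a := fun a => hclosed _
    ((Finset.sum_eq_zero_iff_of_nonneg fun a _ => h_nonneg hN _).1 hB0 a (mem_univ a))
  have hCc : ∀ a, cl N (C a) = C a := fun a => hclosed _
    ((Finset.sum_eq_zero_iff_of_nonneg fun a _ => h_nonneg hN _).1 hC0 a (mem_univ a))
  -- a minimal nonempty closed set
  have hMne : {M : Finset V | M.Nonempty ∧ cl N M = M}.Nonempty :=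
    ⟨univ, univ_nonempty, Subset.antisymm (subset_univ _) (subset_cl hN _)⟩
  obtain ⟨M, ⟨hM1, hM2⟩, hM3⟩ := Set.exists_min_image
    {M : Finset V | M.Nonempty ∧ cl N M = M} (fun M => M.card) (Set.toFinite _) hMne
  have hMin : ∀ S, cl N S = S → ∀ a ∈ M, a ∈ S → M ⊆ S := by
    intro S hS a haM haS
    have h3 : cl N (M ∩ S) = M ∩ S := by
      refine Subset.antisymm ?_ (subset_cl hN _)
      intro x hx
      obtain ⟨b, hb, hxb⟩ := mem_cl.1 hx
      rw [mem_inter] at hb ⊢
      constructor
      · rw [← hM2]; exact mem_cl.2 ⟨b, hb.1, hxb⟩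
      · rw [← hS]; exact mem_cl.2 ⟨b, hb.2, hxb⟩
    have h4 := hM3 (M ∩ S) ⟨⟨a, mem_inter.2 ⟨haM, haS⟩⟩, h3⟩
    have h5 := Finset.eq_of_subset_of_card_le (inter_subset_left (s₁ := M) (s₂ := S)) h4
    rw [← h5]
    exact inter_subset_right
  obtain ⟨a, ha⟩ := hM1
  have h6 : 1 < (N a).card := by
    have h7 := hCE a
    have h8 := card_le_card (subset_cl hN (N a))
    omega
  obtain ⟨b, hb, hba⟩ := Finset.exists_mem_ne h6 a
  have hbM : b ∈ M := by rw [← hM2]; exact mem_cl.2 ⟨a, ha, hb⟩
  have h9 : b ∈ B a := hB a hb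
  have h10 : M ⊆ C b := hMin (C b) (hCc b) b hbM (hC b (hN b))
  exact hba (hBC a b h9 (h10 ha)).symm

/-- no counterexample -/
theorem not_CE [Nonempty V] : ∀ (k : ℕ) (N : V → Finset V), ∑ v, (N v).card = k → Ori N →
    ¬ CE N := by
  intro k
  induction k using Nat.strong_induction_on with
  | _ k ih =>
    intro N hk hO hCE
    refine no_CE hO hCE fun N' hO' hlt => ?_
    rw [hk] at hlt
    exact ih _ hlt N' rfl hO'

end Vale.Agent.P038.H98
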